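import Vale.Agent.P301Z.Stmt
import Vale.Agent.P281Z.Defs

/-!
# P301Y: nef and big line bundles on projective symplectic manifolds. Statements.
-/

open scoped Manifold ContDiff ComplexOrder Topology
open Vale.Agent.P272.K Vale.Agent.P301.H599 Vale.Agent.P301.H99
open Vale.Agent.P285.H281.FD (Bd IsLB IsSec NZ)
open Vale.Agent.P281Z (Mf Pos)

noncomputable section

namespace Vale.Agent.P301Y

/-- the cocycle of `L` -/
def bd {d : ℕ} {X : Type} [TopologicalSpace X] [ChartedSpace (Cm d) X] {ι : Type}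
    (L : LineBundle d X ι) : Bd X := ⟨ι, L.U, L.g⟩

/-- the dual -/
def inv {X : Type} (L : Bd X) : Bd X := ⟨L.ι, L.U, fun i j x => (L.g i j x)⁻¹⟩

/-- `L^a ⊗ A^(-b)` has a nonzero section for some `a` and some `b > 0` -/
def Big (d : ℕ) {X : Type} [TopologicalSpace X] [ChartedSpace (Cm d) X] (L A : Bd X) : Prop :=
  ∃ (a b : ℕ) (f : L.ι × A.ι → X → ℂ), 0 < b ∧ IsSec d ((L.pow a).mul (inv (A.pow b))) f ∧
    ∃ x, NZ ((L.pow a).mul (inv (A.pow b))) f x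

/-- a statement on the data of the big case -/
def ForB (P : ∀ (d : ℕ) (V : Mf d) (ι κ : Type), LineBundle d V.X ι → LineBundle d V.X κ → Prop) :
    Prop :=
  ∀ (d : ℕ) (V : Mf d) [SimplyConnectedSpace V.X]
    (w s : Chart d V.X → Cm d → Matrix (Fin d) (Fin d) ℂ), IsSymplectic d V.X w s →
    ∀ (κ : Type) (A : LineBundle d V.X κ) (α : κ → V.X → ℝ), IsMetric A α →
      (∀ e x, At e x → (curvature A α e (e x)).PosDef) →
      ∀ (ι : Type) (L : LineBundle d V.X ι) (ρ : ι → V.X → ℝ), IsMetric L ρ → P301Z.Nef w L ρ →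
        ¬ P301Z.Isotropic L ρ → P d V ι κ L A

/-- **PRE**: the hypotheses in terms of cocycles -/
def PRE : Prop := ForB fun d V _ _ L A => IsLB d (bd L) ∧ IsLB d (bd A) ∧ Pos d (bd A) ∧
  (∀ p : ℕ, Pos d (((bd L).pow p).mul (bd A))) ∧
  ∃ θ, IsSec d ((Bd.can d V.X).pow 2) θ ∧ ∀ x, NZ ((Bd.can d V.X).pow 2) θ x

/-- **BIG** -/
def BIG : Prop := ForB fun d _ _ _ L A => Big d (bd L) (bd A)

/-- **BPF**: the base point free theorem if `2 K` is trivial -/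
def BPF : Prop := ∀ (d : ℕ) (V : Mf d) [ConnectedSpace V.X] (L A : Bd V.X), IsLB d L → IsLB d A →
  Pos d A → (∀ p : ℕ, Pos d ((L.pow p).mul A)) →
  (∃ θ, IsSec d ((Bd.can d V.X).pow 2) θ ∧ ∀ x, NZ ((Bd.can d V.X).pow 2) θ x) → Big d L A →
  P285.H281.FD.Semiample d L

/-- **the big case** -/
def BC : Prop := ForB fun _ _ _ _ L _ => P301Z.Semiample L

theorem bc_of (h0 : PRE) (h1 : BIG) (h2 : BPF) : BC := by
  intro d V _ w s hs κ A α hα hp ι L ρ hρ hn hi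
  obtain ⟨k1, k2, k3, k4, k5⟩ := h0 d V w s hs κ A α hα hp ι L ρ hρ hn hi
  obtain ⟨m, hm, h⟩ := h2 d V _ _ k1 k2 k3 k4 k5 (h1 d V w s hs κ A α hα hp ι L ρ hρ hn hi)
  refine ⟨m, hm, fun x => ?_⟩
  obtain ⟨f, f1, f2⟩ := h x
  obtain ⟨i, hi⟩ := L.cover x
  exact ⟨f, ⟨fun j e y a b => (f1.holo j e y a b).analyticAt, f1.change⟩, i, hi, f2 i hi⟩

end Vale.Agent.P301Y
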