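import Vale.Agent.P301Y.Bp1
import Vale.Agent.P301Y.Defs
import Vale.Agent.P277Z.Spec2

/-!
# P301Y: the base point free theorem for line bundles
-/

open scoped Manifold ContDiff
open Set Filter Topology
open Vale.Agent.P272.K (Cm Chart At)
open Vale.Agent.P297Z.Pl
open Vale.Agent.P277Z.FI Vale.Agent.P277Z.Lo
open Vale.Agent.P285.H281.FD (Bd IsLB IsSec NZ)
open Vale.Agent.P301Y (inv Big BPF)

noncomputable section

namespace Vale.Agent.P277Z.Y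

variable {n N : ℕ}

section
variable {K : Type} [Field K] [Algebra ℂ K] {M : Mdl n N K}

theorem rep_inv {L : Bd M.W} {D : Div K} {s : L.ι → M.W → ℂ} (h : M.Rep L D s) :
    M.Rep (inv L) (-D) fun i y => (s i y)⁻¹ where
  lb := ⟨h.lb.isOpen, h.lb.cover,
    fun i j x a b => hol_inv (h.lb.holo i j x a b) (h.lb.ne_zero i j x a b),
    fun i j x a b => inv_ne_zero (h.lb.ne_zero i j x a b),
    fun i j k x a b c => (mul_inv _ _).symm.trans (congrArg _ (h.lb.cocycle i j k x a b c))⟩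
  chg i j y a b := (congrArg _ (h.chg i j y a b)).trans (mul_inv _ _)
  loc x i a := by
    obtain ⟨t, u, k1, k2, k3, k4, k5⟩ := h.loc x i a
    refine ⟨t⁻¹, fun y => (u y)⁻¹, inv_ne_zero k1, fun P hP => ?_, hol_inv k3 k4, inv_ne_zero k4, ?_⟩
    · rw [Finsupp.neg_apply, k2 P hP, ord_inv, Int.cast_neg]
    · filter_upwards [k5, M.at_pt (M.val_inv t) x] with y e e'
      rw [e, e', mul_inv]

theorem nef_of (hP : Pos M) {D A : Div K} (hA : M.Amp A) (h : ∀ p : ℕ, M.Amp ((p : ℝ) • D + A)) :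
    M.Nef D := fun Y hY => by
  obtain ⟨ε, e0, e1⟩ := hP.opn Y (-A) hY
  obtain ⟨p, hp⟩ := exists_nat_one_div_lt e0
  have p0 : (0 : ℝ) < p + 1 := by positivity
  have := hP.add _ _ (hP.add _ _ (hP.smul _ _ (one_div_pos.2 p0) (h (p + 1))) e1)
    (hP.smul _ _ (sub_pos.2 hp) hA)
  rw [smul_add, smul_smul, Nat.cast_succ, one_div_mul_cancel p0.ne'] at this
  refine (congrArg M.Amp ?_).mp this
  module

end

theorem bpf_geo (B : Box) (hA : THA n) (hS : SEC n) (hD : LBD n) (hK : MK) (G : Geo n N) :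
    ∀ L A : Bd G.W, G.LB L → G.PosB A → (∀ p : ℕ, G.PosB ((L.pow p).mul A)) →
    (∃ θ, G.Sec ((Bd.can n G.W).pow 2) θ ∧ ∀ x ∈ G.F, NZ ((Bd.can n G.W).pow 2) θ x) →
    ∀ (a b : ℕ) f, 0 < b → G.Sec ((L.pow a).mul (inv (A.pow b))) f →
    (∃ x ∈ G.F, NZ ((L.pow a).mul (inv (A.pow b))) f x) →
    ∃ m : ℕ, 1 ≤ m ∧ ∀ x ∈ G.F, ∃ s, G.Sec (L.pow m) s ∧ NZ (L.pow m) s x := by
  obtain ⟨K, _, _, M, rfl⟩ := hK n N G
  intro L A lL pA pL ⟨θ, t1, t2⟩ a b f b0 f1 ⟨x, hx, f2⟩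
  have hM : M.Proj := ⟨A, pA⟩
  have hL := B.loc n N K M hM
  have hP := B.pos n N K M hM
  have hB := hD N K M hM
  obtain ⟨D, s, dD, iD, s1, s2⟩ := hS N K M hM L lL
  obtain ⟨H, t, dH, iH, r1, r2⟩ := hS N K M hM A pA.choose_spec.1
  have rD : M.Rep L D s := ⟨lL, s1, s2⟩
  have rH : M.Rep A H t := ⟨pA.choose_spec.1, r1, r2⟩
  have aH := hB.amp _ _ _ rH pA
  have nD := nef_of hP aH fun p => hB.amp _ _ _ (hB.mul _ _ _ _ _ _ (hB.pow _ _ _ p rD) rH) (pL p)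
  obtain ⟨g, hg⟩ := hL.coord ⟨x, hx⟩
  obtain ⟨κ, hκ, -⟩ := can_coord hL hg
  have rK := hB.pow _ _ _ 2 (hB.can g κ hκ)
  obtain ⟨u, -, u2⟩ := hB.fn _ _ _ θ rK t1
  have u3 := fun y : M.F => (hB.nz _ _ _ u θ y _ rK t1 u2 (at_chartAt _)).1
    (t2 y y.2 _ (at_chartAt _))
  have hu : -κ = (2⁻¹ : ℝ) • M.div u := by
    rw [← neg_one_smul ℝ κ]
    refine dv_ext (dv_smul hκ.1 _) (dv_smul (dv_div u) _) fun P hp => ?_
    have := (u3 hp.choose).2 P hp.choose_spec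
    simp only [Finsupp.smul_apply, smul_eq_mul, div_apply hL u hp, Nat.cast_ofNat] at this ⊢
    linarith
  have rE := hB.mul _ _ _ _ _ _ (hB.pow _ _ _ a rD) (rep_inv (hB.pow _ _ _ b rH))
  obtain ⟨v, v1, v2⟩ := hB.fn _ _ _ f rE f1
  obtain ⟨i, hi⟩ := rE.lb.cover x hx
  have v0 := ((hB.nz _ _ _ v f ⟨x, hx⟩ i rE f1 v2 hi).1 (f2 i hi)).1
  have dE : M.Dv ((a : ℝ) • D + -((b : ℝ) • H)) := by
    rw [← sub_eq_add_neg]
    exact dv_sub (dv_smul dD _) (dv_smul dH _)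
  obtain ⟨m, m1, m2⟩ := bpf_div (a := a) B hA hM hκ (u3 ⟨x, hx⟩).1 hu iD iH nD aH
    (div_add_nonneg hL dE v1 v0) (dv_add (dv_div v) dE) (by
      refine (congrArg M.Amp ?_).mp
        (amp_div hL hP (hP.smul _ b (Nat.cast_pos.2 b0) aH) v0 (-1))
      module)
  refine ⟨m, m1, fun y hy => ?_⟩
  obtain ⟨w, w1, w2⟩ := m2 ⟨y, hy⟩
  have rM := hB.pow _ _ _ m rD
  obtain ⟨σ, q1, q2⟩ := hB.sec _ _ _ w rM w1
  exact ⟨σ, q1, fun j hj => (hB.nz _ _ _ w σ ⟨y, hy⟩ j rM q1 q2 hj).2 w2⟩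

/-- a compact manifold as a germ -/
def geo (V : P281Z.Mf n) [ConnectedSpace V.X] : Geo n 0 where
  W := V.X
  F := univ
  cpt := isCompact_univ
  conn := isConnected_univ
  π _ := 0
  hol _ _ i := i.elim0
  fib := .of_forall fun _ => iff_of_true rfl trivial

variable {V : P281Z.Mf n} [ConnectedSpace V.X] {L : Bd V.X}

theorem geo_lb (h : IsLB n L) : (geo V).LB L :=
  ⟨h.isOpen, fun x _ => h.cover x, fun i j x a b e he => (h.holo i j e x he a b).analyticAt,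
    h.ne_zero, h.cocycle⟩

theorem geo_pos (h : (geo V).LB L) (k : P281Z.Pos n L) : (geo V).PosB L :=
  let ⟨ψ, k1, k2⟩ := k
  ⟨ψ, h, fun i x a e he => ⟨k1.smooth i e x he a, k2 i e x he a⟩, k1.change⟩

theorem geo_sec {s : L.ι → V.X → ℂ} : (geo V).Sec L s ↔ IsSec n L s :=
  ⟨fun h => have k := fun y => h.self_of_nhdsSet y trivial
    ⟨fun i e x he a => ((k x i a).1 e he).contDiffAt, fun i j x a b => (k x i a).2 j b⟩,
    fun h => .of_forall fun y i a =>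
      ⟨fun e he => (h.holo i e y he a).analyticAt, fun j b => h.change i j y a b⟩⟩

theorem geo_mul {A : Bd V.X} (h : IsLB n L) (k : IsLB n A) (p : ℕ) :
    (geo V).LB ((L.pow p).mul A) where
  isOpen a := (h.isOpen a.1).inter (k.isOpen a.2)
  cover x _ := let ⟨a, ha⟩ := h.cover x; let ⟨b, hb⟩ := k.cover x; ⟨(a, b), ha, hb⟩
  holo i j x a b e he :=
    (((h.holo _ _ e x he a.1 b.1).pow p).mul (k.holo _ _ e x he a.2 b.2)).analyticAt
  ne_zero i j x a b := mul_ne_zero (pow_ne_zero _ (h.ne_zero _ _ x a.1 b.1)) (k.ne_zero _ _ x a.2 b.2)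
  cocycle i j l x a b c := by
    show _ ^ p * _ * (_ ^ p * _) = _ ^ p * _
    rw [mul_mul_mul_comm, ← mul_pow, h.cocycle _ _ _ x a.1 b.1 c.1, k.cocycle _ _ _ x a.2 b.2 c.2]

theorem bpf_of (B : Box) (hA : ∀ n, THA n) (hS : ∀ n, SEC n) (hD : ∀ n, LBD n) (hK : MK) : BPF := by
  intro d V _ L A lL lA pA pL ⟨θ, t1, t2⟩ ⟨a, b, f, b0, f1, x, f2⟩
  obtain ⟨m, m1, m2⟩ := bpf_geo B (hA d) (hS d) (hD d) hK (geo V) L A (geo_lb lL)
    (geo_pos (geo_lb lA) pA) (fun p => geo_pos (geo_mul lL lA p) (pL p))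
    ⟨θ, geo_sec.2 t1, fun y _ => t2 y⟩ a b f b0 (geo_sec.2 f1) ⟨x, trivial, f2⟩
  exact ⟨m, m1, fun y => (m2 y trivial).imp fun _ k => ⟨geo_sec.1 k.1, k.2⟩⟩

end Vale.Agent.P277Z.Y
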