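import Vale.Agent.P280Z.Hr.TopB
import Mathlib.Analysis.Asymptotics.SpecificAsymptotics

/-!
# P301Y: the asymptotic theorem of Riemann and Roch, and the bigness of nef line bundles
-/

open scoped Manifold ContDiff Topology
open Set Filter Asymptotics
open Vale.Agent.P272.K Vale.Agent.P285.H281.FD Vale.Agent.P281Z Vale.Agent.P280Z
  Vale.Agent.P280Z.Ld Vale.Agent.P280Z.Hr.Tp
open Vale.Agent.P277.HD (pull)

noncomputable section

namespace Vale.Agent.P301Y.Arr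

/-- the binomial coefficients -/
def bi (n k : ℕ) : ℝ := k.choose n

theorem bi_succ (n k : ℕ) : bi (n + 1) (k + 1) - bi (n + 1) k = bi n k := by
  rw [bi, bi, bi, Nat.choose_succ_succ, Nat.cast_add, add_sub_cancel_right]

theorem bi_sum (n k : ℕ) : ∑ i ∈ Finset.range k, bi n i = bi (n + 1) k := by
  rw [← funext (bi_succ n), Finset.sum_range_sub (bi (n + 1)), bi, bi, Nat.choose_zero_succ,
    Nat.cast_zero, sub_zero]

theorem bi_top (n : ℕ) : Tendsto (bi (n + 1)) atTop atTop := by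
  refine tendsto_natCast_atTop_atTop.comp (tendsto_atTop_atTop_of_monotone
    (Nat.choose_mono (n + 1)) fun b => ⟨n + b, ?_⟩)
  induction b with
  | zero => exact Nat.zero_le _
  | succ b h =>
    rw [← add_assoc, Nat.choose_succ_succ']
    have := Nat.choose_pos (Nat.le_add_right n b)
    omega

theorem stolz {n : ℕ} {f : ℕ → ℝ} {c : ℝ}
    (h : (fun k => f (k + 1) - f k - c * bi n k) =o[atTop] bi n) :
    (fun k => f k - c * bi (n + 1) k) =o[atTop] bi (n + 1) := by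
  have k := h.sum_range (fun _ => Nat.cast_nonneg _) (by simpa only [bi_sum] using bi_top n)
  simp only [Finset.sum_sub_distrib, ← Finset.mul_sum, bi_sum] at k
  have k0 : (fun _ => f 0) =o[atTop] bi (n + 1) :=
    isLittleO_const_left.2 (.inr (tendsto_norm_atTop_atTop.comp (bi_top n)))
  refine (k.add k0).congr_left fun j => ?_
  rw [← Finset.sum_sub_distrib, Finset.sum_range_sub]
  ring

variable {T : CT}

/-- the leading term of the dimension of the space of sections -/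
theorem arr (hL : LD) (hT : T.OK) : ∀ (n : ℕ) (V : Mf n) (L H : Bd V.X) (M : ℕ → Bd V.X),
    IsLB n L → IsLB n H → Bpf n H → Bpf n (L.mul H) →
    (∀ k, ∃ φ ψ, Ml n (M (k + 1)) (M k) L φ ψ) → (∀ k, Ap T V (M k)) →
    (fun k => (h0 n (M k) : ℝ) - T.int V (T.c1 V L ^ n) * bi n k) =o[atTop] bi n
  | 0, V, L, H, M, _, _, _, _, h5, _ => by
    refine (isLittleO_zero _ _).congr_left fun k => ?_
    obtain ⟨_, _, h⟩ := h5 k
    rw [(hL.pt V _ h.lN).2.1, pow_zero, hT.rg.int_pt, bi, Nat.choose_zero_right, Nat.cast_one,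
      mul_one, sub_self]
  | n + 1, V, L, H, M, h1, h2, h3, h4, h5, h6 => by
    choose φ ψ h5 using h5
    have l := fun k => lb_mul (h5 k).lM h2
    have m1 : ∀ k, Ml (n + 1) ((M (k + 1)).mul H) (M k) (L.mul H) (fun a => φ k a.1)
        fun a => (ψ k a.1, a.2) := fun k =>
      ⟨l k, (h5 k).lN, lb_mul h1 h2, fun a _ h => (h5 k).sN _ h.1,
        fun a _ h => ⟨(h5 k).sA _ h.1, h.2⟩, fun a b x ha hb =>
          (congrArg (· * H.g a.2 b.2 x) ((h5 k).g _ _ x ha.1 hb.1)).trans (mul_assoc _ _ _)⟩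
    have m2 := fun k => ml_mul (h5 k).lM h2
    have m3 : ∀ k, Ml (n + 1) ((M (k + 1 + 1)).mul H) ((M (k + 1)).mul H) L
        (fun a => (φ _ a.1, a.2)) fun a => ψ _ a.1 := fun k =>
      ⟨l _, l k, h1, fun a _ h => ⟨(h5 _).sN _ h.1, h.2⟩, fun a _ h => (h5 _).sA _ h.1,
        fun a b x ha hb =>
          (congrArg (· * H.g a.2 b.2 x) ((h5 _).g _ _ x ha.1 hb.1)).trans (mul_right_comm _ _ _)⟩
    obtain ⟨s, Z, i, c⟩ := ex_cut hL V (lb_mul h1 h2) h4
    obtain ⟨s', Z', i', c'⟩ := ex_cut hL V h2 h3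
    have a := arr hL hT n Z (pull i L) (pull i H) (fun k => pull i ((M (k + 1)).mul H))
      (c.emb.hol.lb h1) (c.emb.hol.lb h2) (bpf_pull c.emb.hol h3) (bpf_pull c.emb.hol h4)
      (fun k => ⟨_, _, (m3 k).pull c.emb.hol⟩) fun k => ap_cut hL hT c (m1 k) (h6 k)
    have a' := arr hL hT n Z' (pull i' L) (pull i' H) (fun k => pull i' ((M (k + 1)).mul H))
      (c'.emb.hol.lb h1) (c'.emb.hol.lb h2) (bpf_pull c'.emb.hol h3) (bpf_pull c'.emb.hol h4)
      (fun k => ⟨_, _, (m3 k).pull c'.emb.hol⟩) fun k => ap_cut hL hT c' (m2 k) (h6 _)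
    refine stolz ((a.sub a').congr_left fun k => ?_)
    have e := (hL.step T hT c _ _ _ _ (m1 k) (h6 k)).symm.trans
      (hL.step T hT c' _ _ _ _ (m2 k) (h6 _))
    have e' := congrArg (Nat.cast : ℕ → ℝ) e
    rw [hT.c1.pull c.emb.hol L h1, hT.c1.pull c'.emb.hol L h1, ← map_pow, ← map_pow, ← hT.pl c,
      ← hT.pl c', hT.c1.mul V L H h1 h2, add_mul, map_add, ← pow_succ']
    push_cast at e'
    linarith

theorem pt_sec (hL : LD) (V : Mf 0) {A : Bd V.X} (h : IsLB 0 A) :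
    ∃ σ, IsSec 0 A σ ∧ ∀ x, NZ A σ x := by
  choose a ha using h.cover
  obtain ⟨s, hs⟩ := ((hL.pt V A h).2.2 a ha).2 fun _ => 1
  exact ⟨s.1, s.2.1, fun x => not_not.1 fun k =>
    one_ne_zero ((congrFun hs x).symm.trans ((not_nz h s.2.1 (ha x)).1 k))⟩

/-- a base point free line bundle has a section whose zero set is nowhere dense -/
theorem dense_sec (hL : LD) : ∀ {n : ℕ} (V : Mf n) {A : Bd V.X}, IsLB n A → Bpf n A →
    ∃ σ, IsSec n A σ ∧ Dense {x | NZ A σ x}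
  | 0, V, _, h, _ => (pt_sec hL V h).imp fun _ k => ⟨k.1, fun x => subset_closure (k.2 x)⟩
  | _ + 1, V, _, h, k => by
    obtain ⟨s, _, _, c⟩ := ex_cut hL V h k
    exact ⟨s, c.sec, (hL.div c).1⟩

theorem h0_le (hL : LD) {n : ℕ} {V : Mf n} {M N A : Bd V.X} {φ ψ} (hK : V.Kah)
    (h : Ml n M N A φ ψ) (k : Bpf n A) : h0 n N ≤ h0 n M := by
  obtain ⟨σ, h1, h2⟩ := dense_sec hL V h.lA k
  obtain ⟨a, b, -⟩ := hL.mul V M N A φ ψ h σ h1
  have := hL.fin V M hK h.lM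
  refine LinearMap.finrank_le_finrank_of_injective (f := (tm M φ ψ σ).restrict a)
    ((injective_iff_map_eq_zero _).2 fun t e => Subtype.ext ?_)
  exact b h2 t.1 t.2 (congrArg Subtype.val e)

theorem h0_res (hL : LD) {m n : ℕ} {V : Mf m} {Z : Mf n} {M N A : Bd V.X} {φ ψ σ} {i : Z.X → V.X}
    (hK : Z.Kah) (c : Cut A σ i) (h : Ml m M N A φ ψ) (k : ∀ t ∈ Γ m N, t = 0) :
    h0 m M ≤ h0 n (pull i M) := by
  have := hL.fin Z _ hK (c.emb.hol.lb h.lM)
  refine LinearMap.finrank_le_finrank_of_injective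
    (f := (res i M).restrict fun _ => res_mem c.emb.hol)
    ((injective_iff_map_eq_zero _).2 fun s e => Subtype.ext ?_)
  obtain ⟨t, h1, h2⟩ := (hL.div c).2 M N φ ψ h s.1 s.2 (congrArg Subtype.val e)
  rw [← h2, k t h1, map_zero]
  rfl

theorem bpf_pow {n : ℕ} {W : Mf n} {L : Bd W.X} (h : Bpf n L) (k : ℕ) : Bpf n (L.pow k) :=
  fun x => (h x).elim fun s e => ⟨fun a y => s a y ^ k,
    isSec_of (fun _ _ ha => (sec_hol e.1 ha).pow k) fun a b y ha hb => by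
      rw [e.1.change a b y ha hb, mul_pow]
      rfl, fun a ha => pow_ne_zero _ (e.2 a ha)⟩

/-- **the inequality of Siu**, for a trivial canonical class -/
theorem big (hL : LD) (hT : T.OK) {n : ℕ} (V : Mf (n + 1)) (L B : Bd V.X) (h1 : IsLB (n + 1) L)
    (h2 : IsLB (n + 1) B) (h3 : Bpf (n + 1) B) (h4 : Bpf (n + 1) (L.mul B))
    (hK : T.c1 V (Bd.can (n + 1) V.X) = 0)
    (hp : ∀ k : ℕ, T.Kc V ((k : ℝ) • T.c1 V L + T.c1 V B))
    (hn : T.int V (T.c1 V L ^ (n + 1)) ≠ 0) :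
    ∃ k, 0 < k ∧ ∃ t ∈ Γ (n + 1) ((L.pow k).mul (zp B (-1))), t ≠ 0 := by
  by_contra hc
  push Not at hc
  have l2 := lb_pow h2 2
  have b2 := bpf_pow h3 2
  have lN := fun k => lb_mul (lb_pow h1 k) (lb_zp h2 (-1))
  have l1 := fun k => lb_mul (lN k) l2
  have st : ∀ M : ℕ → Bd V.X, (∀ k, ∃ φ ψ, Ml (n + 1) (M (k + 1)) (M k) L φ ψ) →
      ∀ {C : Bd V.X}, IsLB (n + 1) C →
      ∀ k, ∃ φ ψ, Ml (n + 1) ((M (k + 1)).mul C) ((M k).mul C) L φ ψ := fun M h C hC k => by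
    obtain ⟨φ, ψ, h⟩ := h k
    exact ⟨fun a => (φ a.1, a.2), fun a => ψ a.1, lb_mul h.lM hC, lb_mul h.lN hC, h1,
      fun a _ e => ⟨h.sN _ e.1, e.2⟩, fun a _ e => h.sA _ e.1, fun a b x ha hb =>
        (congrArg (· * C.g a.2 b.2 x) (h.g _ _ x ha.1 hb.1)).trans (mul_right_comm _ _ _)⟩
  have s1 := st (fun k => (L.pow k).mul (zp B (-1)))
    (st L.pow (fun k => ⟨_, _, ml_succ h1 k⟩) (lb_zp h2 (-1))) l2
  have a1 : ∀ k, Ap T V (((L.pow k).mul (zp B (-1))).mul (B.pow 2)) := fun k => by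
    rw [Ap, hK, sub_zero, hT.c1.mul V _ _ (lN k) l2, hT.c1.mul V _ _ (lb_pow h1 k) (lb_zp h2 _),
      hT.c1.pow V L k h1, hT.c1.pow V B 2 h2, c1_zp hL hT h2, add_assoc, ← add_smul]
    norm_num
    exact hp k
  have r1 := arr hL hT _ V L B (fun k => ((L.pow k).mul (zp B (-1))).mul (B.pow 2))
    h1 h2 h3 h4 s1 a1
  have r3 := arr hL hT _ V L B
    (fun k => (((L.pow k).mul (zp B (-1))).mul (B.pow 2)).mul (B.pow 2)) h1 h2 h3 h4
    (st (fun k => ((L.pow k).mul (zp B (-1))).mul (B.pow 2)) s1 l2)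
    fun k => ap_ml hL hT (ml_mul (l1 k) l2) (a1 k) b2
  obtain ⟨s, Z, i, c⟩ := ex_cut hL V l2 b2
  have kZ : Z.Kah := (hT.po.kah Z).2 ⟨_, kc_pull hT c.emb.hol c.emb.imm (hp 0)⟩
  set v := T.int V (T.c1 V L ^ (n + 1))
  have hv : 0 < v := lt_of_le_of_ne (not_lt.1 fun hv => by
    obtain ⟨k, e1, e2⟩ := ((r1.bound (half_pos (neg_pos.2 hv))).and
      ((bi_top n).eventually_gt_atTop 0)).exists
    rw [Real.norm_eq_abs, Real.norm_eq_abs, abs_of_pos e2] at e1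
    linarith [(abs_le.1 e1).2, mul_pos (neg_pos.2 hv) e2, Nat.cast_nonneg (α := ℝ)
      (h0 (n + 1) (((L.pow k).mul (zp B (-1))).mul (B.pow 2)))]) hn.symm
  obtain ⟨k, ⟨e1, e2⟩, e3⟩ := ((((r1.const_mul_left 2).sub r3).bound (half_pos hv)).and
    ((bi_top n).eventually_gt_atTop 0) |>.and (eventually_gt_atTop 0)).exists
  have f1 := hL.step T hT c _ _ _ _ (ml_mul (l1 k) l2) (a1 k)
  have f2 := (h0_res hL kZ c (ml_mul (lN k) l2) (hc k e3)).trans
    (h0_le hL kZ ((ml_mul (l1 k) l2).pull c.emb.hol) (bpf_pull c.emb.hol b2))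
  have f3 := congrArg (Nat.cast : ℕ → ℝ) f1
  have f4 := (Nat.cast_le (α := ℝ)).2 f2
  push_cast at f3
  rw [Real.norm_eq_abs, Real.norm_eq_abs, abs_of_pos e2] at e1
  linarith [(abs_le.1 e1).1, mul_pos hv e2]

end Vale.Agent.P301Y.Arr
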