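import Vale.Agent.P301Y.Defs
import Vale.Agent.P301Y.Arr
import Vale.Agent.P280Z.Co.All
import Vale.Agent.P280Z.Ld.All

/-!
# P301Y: a nef line bundle which is not isotropic is big
-/

open scoped Manifold ContDiff Topology Nat
open Set Filter MeasureTheory
open Vale.Agent.P272.K Vale.Agent.P285.H281.FD Vale.Agent.P281Z Vale.Agent.P280Z
  Vale.Agent.P280Z.Ld Vale.Agent.P280Z.Hr.Tp Vale.Agent.P280Z.Co
open Vale.Agent.P301.H599 (LineBundle IsMetric)
open Vale.Agent.P277Z.Slc (isLB_can)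

noncomputable section

namespace Vale.Agent.P301Y

theorem vol_ne {d : ℕ} {V : Mf d} {ι : Type} {L : LineBundle d V.X ι} {ρ : ι → V.X → ℝ}
    (hL : IsLB d (bd L)) (hρ : IsMetric L ρ) (h : ¬ P301Z.Isotropic L ρ) :
    ct.int V (ct.c1 V (bd L) ^ d) ≠ 0 := fun k => h fun N e r a b c s => by
  obtain ⟨D, h1, h2, h3⟩ := Bez.c1_pow c1e hL (ψ := ρ) ⟨hρ.smooth, hρ.change⟩
  have q := (h1.isIntegral N e r a b c s).trans (h2.symm.trans k)
  have hc : (d ! / Real.pi ^ d : ℝ) ≠ 0 :=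
    (div_pos (Nat.cast_pos.2 d.factorial_pos) (pow_pos Real.pi_pos d)).ne'
  refine mul_left_cancel₀ hc ?_
  rw [mul_zero, ← q, Finset.mul_sum]
  refine Finset.sum_congr rfl fun i _ => ?_
  rw [← integral_const_mul]
  refine setIntegral_congr_fun (e i).open_target.measurableSet fun z hz => ?_
  have := h3 _ _ _ ⟨a i, (e i).map_target hz⟩ (L.cover _).choose_spec
  rw [(e i).right_inv hz] at this
  dsimp only
  rw [this, mul_left_comm]
  rfl

theorem lb_inv {d : ℕ} {V : Mf d} (A : Bd V.X) : zp A (-1) = inv A :=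
  congrArg (Bd.mk A.ι A.U) (funext₂ fun _ _ => funext fun _ => zpow_neg_one _)

theorem pow_pow {X : Type} (A : Bd X) (j k : ℕ) : (A.pow j).pow k = A.pow (j * k) :=
  congrArg (Bd.mk A.ι A.U) (funext₂ fun _ _ => funext fun _ => (pow_mul _ _ _).symm)

theorem big_ct {T : CT} (hL : LD) (hT : T.OK) : ∀ {d : ℕ} (V : Mf d) [Nonempty V.X] (L A : Bd V.X),
    IsLB d L → IsLB d A → Pos d A → (∀ p : ℕ, Pos d ((L.pow p).mul A)) →
    (∃ θ, IsSec d ((Bd.can d V.X).pow 2) θ ∧ ∀ x, NZ ((Bd.can d V.X).pow 2) θ x) →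
    T.int V (T.c1 V L ^ d) ≠ 0 → Big d L A
  | 0, V, _, L, A, h1, h2, _, _, _, _ => by
    obtain ⟨s, k1, k2⟩ := Arr.pt_sec hL V (lb_mul (lb_pow h1 0) (lb_zp (lb_pow h2 1) (-1)))
    revert s
    rw [lb_inv]
    exact fun s k1 k2 => ⟨0, 1, s, one_pos, k1, Classical.arbitrary _, k2 _⟩
  | n + 1, V, _, L, A, h1, h2, h3, h4, ⟨θ, h5, h6⟩, h7 => by
    have hK : T.c1 V (Bd.can (n + 1) V.X) = 0 := by
      have := hT.c1.triv V _ θ (lb_pow isLB_can 2) h5 h6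
      rw [hT.c1.pow V _ 2 isLB_can] at this
      exact (smul_eq_zero.1 this).resolve_left (by norm_num)
    have hp : ∀ (p : ℕ) (c : ℝ), 1 ≤ c → T.Kc V ((p : ℝ) • T.c1 V L + c • T.c1 V A) :=
      fun p c hc => by
        have := kc_add hT (hT.c1.pos V _ (lb_mul (lb_pow h1 p) h2) (h4 p))
          (nn_smul hT (nn_of hT (hT.c1.pos V A h2 h3)) (sub_nonneg.2 hc))
        rwa [hT.c1.mul V _ _ (lb_pow h1 p) h2, hT.c1.pow V L p h1, sub_smul, one_smul, add_assoc,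
          add_sub_cancel] at this
    obtain ⟨k, r, s, k1, k2⟩ := hL.va V A h2 h3
    have b0 : Bpf (n + 1) (A.pow k) := fun x => by
      obtain ⟨j, hj⟩ := not_forall.1 fun h => (k2.bpf ▸ (h : x ∈ Bs (A.pow k) s) : x ∈ (∅ : Set _))
      exact ⟨s j, (k2.sec j).1, not_not.1 hj⟩
    have b1 := Arr.bpf_pow b0 (n + 2)
    rw [pow_pow] at b1
    have lB := lb_pow h2 (k * (n + 2))
    have k3 : (1 : ℝ) ≤ k := Nat.one_le_cast.2 k1
    obtain ⟨a, -, t, t1, t2⟩ := Arr.big hL hT V L _ h1 lB b1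
      (hL.gg T hT V _ _ _ s k2 (lb_mul h1 lB) (by
        have := hp 1 k k3
        rw [hK, sub_zero, hT.c1.mul V _ _ h1 lB, hT.c1.pow V A _ h2, hT.c1.pow V A _ h2, smul_smul,
          add_sub_assoc, ← sub_smul]
        push_cast at this ⊢
        rwa [show (k : ℝ) * (n + 2) - (n + 1) * k = k by ring, ← one_smul ℝ (T.c1 V L)])) hK
      (fun p => by
        rw [hT.c1.pow V A _ h2]
        exact hp p _ (Nat.one_le_cast.2 (Nat.mul_pos k1 (Nat.succ_pos _)))) h7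
    have lN := lb_mul (lb_pow h1 a) (lb_zp lB (-1))
    revert t lN
    rw [lb_inv]
    intro t t1 t2 lN
    obtain ⟨i, hi⟩ := Function.ne_iff.1 t2
    obtain ⟨x, hx⟩ := Function.ne_iff.1 hi
    exact ⟨a, _, t, Nat.mul_pos k1 (Nat.succ_pos _), t1.1, x, not_not.1 fun h =>
      hx ((not_nz lN t1.1 (not_not.1 fun e => hx (t1.2 i x e))).1 h)⟩

/-- **BIG** -/
theorem big_of (h : PRE) : BIG := by
  intro d V _ w s hs κ A α hα hp ι L ρ hρ hn hi
  obtain ⟨k1, k2, k3, k4, k5⟩ := h d V w s hs κ A α hα hp ι L ρ hρ hn hi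
  exact big_ct ld ct_ok V _ _ k1 k2 k3 k4 k5 (vol_ne k1 hρ hi)

end Vale.Agent.P301Y
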