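import Vale.Agent.P301Y.Bp2
import Vale.Agent.P277Z.F5.Fin

/-!
# P301Y: the base point free theorem, unconditionally
-/

namespace Vale.Agent.P301Y

open Vale.Agent.P277Z

theorem bpf : BPF := Y.bpf_of FI.box F5.tha FI.secA FI.lbdA mk

end Vale.Agent.P301Y
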