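import Vale.Agent.P301Y.Pre
import Vale.Agent.P301Y.Big
import Vale.Agent.P301Y.Bpf

/-!
# P301Y: nef line bundles which are not isotropic on projective symplectic manifolds are semiample
-/

namespace Vale.Agent.P301Y

theorem bc : BC := bc_of pre (big_of pre) bpf

end Vale.Agent.P301Y
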