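import Vale.Agent.P277Z.FI.Dv
import Vale.Agent.P277Z.Gr.Ver

/-!
# P301Y: the base point free theorem from finite generation, for divisors
-/

open Set Filter Topology
open Vale.Agent.P297 (Place)
open Vale.Agent.P297Z.Pl
open Vale.Agent.P277Z.FI

noncomputable section

namespace Vale.Agent.P277Z.Y

variable {n N : ℕ} {K : Type} [Field K] [Algebra ℂ K] {M : Mdl n N K}

/-- the section `f` of `D` does not vanish at `x` -/
def NV (M : Mdl n N K) (D : Div K) (x : M.F) (f : K) : Prop :=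
  f ≠ 0 ∧ ∀ P, M.On x P → (P.ord f : ℝ) + D P = 0

theorem nv_span (hL : Loc M) {R : Subalgebra ℂ K} {x : M.F} (hR : ∀ a ∈ R, a ∈ M.O x) {D : Div K}
    {S : Set K} (hS : ∀ g ∈ S, g ∈ M.H0 D) {f : K} (hf : f ∈ Submodule.span R S)
    (h : NV M D x f) : ∃ g ∈ S, NV M D x g := by
  have ho : ∀ g, g ≠ 0 → ∀ P, M.On x P → (P.ord (g / f) : ℝ) = P.ord g + D P := fun g h0 P hP => by
    rw [ord_div P h0 h.1, Int.cast_sub]
    linarith [h.2 P hP]
  have hm : ∀ g ∈ M.H0 D, g / f ∈ M.O x := fun g hg => by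
    by_cases h0 : g = 0
    · rw [h0, zero_div]
      exact zero_mem _
    · refine hL.mem x _ fun P hP => Int.cast_le (R := ℝ).1 ?_
      rw [ho g h0 P hP, Int.cast_zero]
      exact hg.resolve_left h0 P ⟨x, hP⟩
  by_contra c
  have key : ∀ g ∈ Submodule.span R S, g / f ∈ M.O x ∧ M.val (g / f) x = 0 := fun g hg => by
    induction hg using Submodule.span_induction with
    | mem g hg =>
      refine ⟨hm g (hS g hg), by_contra fun e => c ⟨g, hg, ?_⟩⟩
      have g0 : g ≠ 0 := fun k => e (by rw [k, zero_div, M.val_zero])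
      refine ⟨g0, fun P hP => ?_⟩
      rw [← ho g g0 P hP, ord_unit P (ct_of_on hP _ (hm g (hS g hg)))
        (ct_of_on hP _ (M.inv_mem (hm g (hS g hg)) e)), Int.cast_zero]
    | zero => rw [zero_div]; exact ⟨zero_mem _, M.val_zero _⟩
    | add a b _ _ ha hb =>
      rw [add_div]
      exact ⟨add_mem ha.1 hb.1, by rw [M.val_add_at ha.1 hb.1, ha.2, hb.2, add_zero]⟩
    | smul a b _ hb =>
      have e : (a • b) / f = (a : K) * (b / f) := mul_div_assoc (a : K) b f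
      rw [e]
      exact ⟨mul_mem (hR _ a.2) hb.1, by rw [M.val_mul_at (hR _ a.2) hb.1, hb.2, mul_zero]⟩
  have := (key f hf).2
  rw [div_self h.1, M.val_one] at this
  exact one_ne_zero this

theorem nv_mul {x : M.F} {D E : Div K} {f g : K} (hf : f ∈ M.H0 D) (hg : g ∈ M.H0 E)
    (h : NV M (D + E) x (f * g)) : NV M D x f ∧ NV M E x g := by
  have f0 := left_ne_zero_of_mul h.1
  have g0 := right_ne_zero_of_mul h.1
  have k : ∀ P, M.On x P → (P.ord f : ℝ) + D P = 0 ∧ (P.ord g : ℝ) + E P = 0 := fun P hP => by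
    have a := hf.resolve_left f0 P ⟨x, hP⟩
    have b := hg.resolve_left g0 P ⟨x, hP⟩
    have c := h.2 P hP
    rw [ord_mul P f0 g0, Int.cast_add, Finsupp.add_apply] at c
    exact ⟨by linarith, by linarith⟩
  exact ⟨⟨f0, fun P hP => (k P hP).1⟩, g0, fun P hP => (k P hP).2⟩

theorem free_nsmul {x : M.F} {D : Div K} (h : M.Free D x) (k : ℕ) : M.Free ((k : ℝ) • D) x := by
  obtain ⟨f, h1, h2, h3⟩ := h
  refine ⟨f ^ k, ?_, pow_ne_zero _ h2, fun P hP => ?_⟩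
  · rw [Nat.cast_smul_eq_nsmul]
    exact (fam_H0 M).pow h1 k
  · rw [ord_pow, Finsupp.smul_apply, smul_eq_mul, Int.cast_mul, Int.cast_natCast, ← mul_add,
      h3 P hP, mul_zero]

/-- the degrees -/
def dg (D A : Div K) : ℕ × ℕ →+ Div K where
  toFun p := (p.1 : ℝ) • D + (p.2 : ℝ) • A
  map_zero' := by simp
  map_add' a b := by
    simp only [Prod.fst_add, Prod.snd_add, Nat.cast_add, add_smul]
    abel

theorem mono_mem {D A : Div K} {T : Set ((ℕ × ℕ) × K)}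
    (hT : ∀ t ∈ T, t.2 ∈ M.H0 (dg D A t.1)) {p : ℕ × ℕ} {g : K} (h : P277Z.Gr.Mono T p g) :
    g ∈ M.H0 (dg D A p) :=
  h.mem_fam (H := fun a => M.H0 (dg D A a)) ((fam_H0 M).comap (dg D A)) hT

theorem mono_le {x : M.F} {D A : Div K} {T : Set ((ℕ × ℕ) × K)} {C : ℕ}
    (hT : ∀ t ∈ T, t.2 ∈ M.H0 (dg D A t.1))
    (hC : ∀ t ∈ T, NV M (dg D A t.1) x t.2 → t.1.1 ≤ C * t.1.2) {p : ℕ × ℕ} {g : K}
    (h : P277Z.Gr.Mono T p g) : NV M (dg D A p) x g → p.1 ≤ C * p.2 := by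
  induction h with
  | one => exact fun _ => Nat.zero_le _
  | mul ht hm ih =>
    intro k
    rw [map_add] at k
    obtain ⟨k1, k2⟩ := nv_mul (hT _ ht) (mono_mem hT hm) k
    rw [Prod.fst_add, Prod.snd_add, mul_add]
    exact add_le_add (hC _ ht k1) (ih k2)

/-- finite generation implies that nef divisors are semiample -/
theorem semi_of_fg (hL : Loc M) (hP : Pos M) {R : Subalgebra ℂ K} (hR : ∀ a ∈ R, a ∈ M.O₀)
    {D A : Div K} (iD : IsInt D) (iA : IsInt A) (hA : ∀ k : ℕ, M.Amp ((k : ℝ) • D + A))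
    {T : Set ((ℕ × ℕ) × K)} (h1 : T.Finite) (h2 : ∀ t ∈ T, t.2 ∈ M.H0 (dg D A t.1))
    (h3 : ∀ p, ∀ f ∈ M.H0 (dg D A p), f ∈ P277Z.Gr.gen R T p) :
    ∃ m : ℕ, 1 ≤ m ∧ ∀ x, M.Free ((m : ℝ) • D) x := by
  obtain ⟨C, hC⟩ := (h1.image fun t => t.1.1).bddAbove
  refine ⟨C.factorial, C.factorial_pos, fun x => by_contra fun c => ?_⟩
  obtain ⟨m, hm⟩ := hP.gg _ 0 (hA (C + 1)) (IsInt.add (IsInt.nsmul iD _) iA) IsInt.zero
  obtain ⟨f, f1, f2⟩ := hm (m + 1) m.le_succ x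
  have e : 0 + ((m + 1 : ℕ) : ℝ) • (((C + 1 : ℕ) : ℝ) • D + A) =
      dg D A ((m + 1) * (C + 1), m + 1) := by
    show _ = (((m + 1) * (C + 1) : ℕ) : ℝ) • D + ((m + 1 : ℕ) : ℝ) • A
    rw [zero_add, smul_add, smul_smul, Nat.cast_mul]
  rw [e] at f1 f2
  obtain ⟨g, g1, g2⟩ := nv_span hL (fun a ha => O₀_le (hR a ha) x)
    (fun _ hg => mono_mem h2 hg) (h3 _ f f1) f2
  have := mono_le (C := C) h2 (fun t ht k => ?_) g1 g2
  · dsimp only at this
    nlinarith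
  have b : t.1.1 ≤ C := hC ⟨t, ht, rfl⟩
  rcases Nat.eq_zero_or_pos t.1.2 with z | z
  · refine (Nat.eq_zero_of_not_pos fun a => c ?_).le.trans (Nat.zero_le _)
    obtain ⟨q, hq⟩ := Nat.dvd_factorial a b
    have e' : dg D A t.1 = (t.1.1 : ℝ) • D := by
      show _ + (t.1.2 : ℝ) • A = _
      rw [z, Nat.cast_zero, zero_smul, add_zero]
    have := free_nsmul (x := x) ⟨t.2, h2 t ht, k⟩ q
    rwa [e', smul_smul, ← Nat.cast_mul, mul_comm, ← hq] at this
  · exact b.trans (Nat.le_mul_of_pos_right C z)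

omit [Algebra ℂ K] in
theorem small {Z : Div K} (h : 0 ≤ Z) {c : ℝ} (hc : 0 < c) :
    ∃ δ : ℝ, 0 < δ ∧ δ ≤ c ∧ ∀ P, (δ • Z) P ≤ 1 := by
  classical
  have s0 : 0 ≤ ∑ P ∈ Z.support, Z P := Finset.sum_nonneg fun P _ => h P
  have p : 0 < 1 + ∑ P ∈ Z.support, Z P := by linarith
  refine ⟨min c (1 + ∑ P ∈ Z.support, Z P)⁻¹, lt_min hc (inv_pos.2 p), min_le_left _ _, fun P => ?_⟩
  have a : Z P ≤ 1 + ∑ P ∈ Z.support, Z P := by
    by_cases k : P ∈ Z.support
    · linarith [Finset.single_le_sum (f := fun P => Z P) (fun P _ => h P) k]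
    · rw [Finsupp.notMem_support_iff.1 k]
      exact p.le
  exact (mul_le_mul (min_le_right _ _) a (h P) (inv_pos.2 p).le).trans (inv_mul_cancel₀ p.ne').le

theorem adj_of {M' : Mdl n N K} {m : Mod M' M} (hL : Loc M) (hP' : Pos M') (hB : Bir M' M m)
    {κ κ' D G E : Div K} {T : Set (Place K)} {c : ℝ} (hc : 0 < c) (hG : M.Amp G) (hE : 0 ≤ E)
    (hT : ∀ P, E P ≠ 0 ∨ P ∈ Exc M' M → P ∈ T)
    (hN : ∀ δ : ℝ, 0 < δ → δ ≤ c → M.Nef (D - κ - δ • (G + E))) :
    Adj M' κ' T (M.pull M' D + (κ' - M.pull M' κ)) := by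
  obtain ⟨H, s, -, H0, hH⟩ := hB.amp
  obtain ⟨ε, ε0, hε⟩ := hH G hG
  have z : 0 ≤ M.pull M' E + ε • H := add_nonneg (pull_nonneg hB hE) (smul_nonneg ε0.le H0)
  obtain ⟨δ, d0, d1, d2⟩ := small z hc
  refine ⟨1, one_pos, δ • (M.pull M' E + ε • H), fun P k => hT P ?_,
    fun P => ⟨smul_nonneg d0.le z P, d2 P⟩, ?_⟩
  · by_cases a : M.pull M' E P = 0
    · refine Or.inr (s ▸ Finsupp.mem_support_iff.2 fun b => Finsupp.mem_support_iff.1 k ?_)
      simp [a, b]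
    · exact pull_supp hL hB E a
  · refine (congrArg M'.Amp ?_).mp (hB.nef _ (hN δ d0 d1) _ (hP'.smul _ δ d0 hε))
    simp only [← pl_apply hB, map_sub, map_add, map_smul]
    module

theorem nef_smul (hP : Pos M) {D : Div K} (h : M.Nef D) {c : ℝ} (hc : 0 ≤ c) : M.Nef (c • D) := by
  intro A hA
  rcases hc.eq_or_lt with rfl | p
  · rwa [zero_smul, zero_add]
  · have := hP.smul _ c p (h _ (hP.smul _ c⁻¹ (inv_pos.2 p) hA))
    rwa [smul_add, smul_inv_smul₀ p.ne'] at this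

/-- the base point free theorem if a multiple of the canonical divisor is principal -/
theorem bpf_div (B : Box) (hA : THA n) (hM : M.Proj) {g : Fin n → K} {κ D A E : Div K} {u : K}
    {r : ℝ} {a : ℕ} (hκ : M.Can g κ) (u0 : u ≠ 0) (hu : -κ = r • M.div u) (iD : IsInt D)
    (iA : IsInt A) (nD : M.Nef D) (aA : M.Amp A) (hE : 0 ≤ E) (dE : M.Dv E)
    (hG : M.Amp ((a : ℝ) • D - E)) : ∃ m : ℕ, 1 ≤ m ∧ ∀ x, M.Free ((m : ℝ) • D) x := by
  classical
  have hL := B.loc n N K M hM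
  have hP := B.pos n N K M hM
  obtain ⟨M', ⟨m⟩, hM', hg⟩ := B.hir n N K M hM E.support 0 (fun j => j.elim0)
    E.support.finite_toSet fun j => j.elim0
  have hL' := B.loc n N K M' hM'
  have hP' := B.pos n N K M' hM'
  have hB := B.bir n N K M hM M' m hM'
  obtain ⟨κ', hκ'⟩ := exists_can' hL hL' (B.jmd n) m hκ
  obtain ⟨F0, F1⟩ := hB.can g κ κ' hκ hκ'
  have nκ : ∀ Z, M.Nef Z → M.Nef (Z - κ) := fun Z h Y hY => by
    have := amp_div hL hP (h Y hY) u0 r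
    rwa [← hu, add_right_comm, ← sub_eq_add_neg] at this
  have hT : ∀ P, E P ≠ 0 ∨ P ∈ Exc M' M → P ∈ (E.support : Set (Place K)) ∪ Exc M' M :=
    fun P => Or.imp_left Finsupp.mem_support_iff.2
  have a0 : (0 : ℝ) < a + 1 := by positivity
  have k1 := adj_of (κ := κ) (κ' := κ') (D := D) hL hP' hB (inv_pos.2 a0) hG hE hT fun δ _ d => by
    have : 0 ≤ 1 - δ * a := by
      have := (le_inv_mul_iff₀ a0).1 (d.trans (mul_one _).ge)
      nlinarith
    refine (congrArg M.Nef ?_).mp (nκ _ (nef_smul hP nD this))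
    module
  have k2 := adj_of (κ := κ) (κ' := κ') (D := A) (E := 0) hL hP' hB one_pos aA le_rfl
    (fun P k => hT P (Or.inr (k.resolve_left fun e => e rfl))) fun δ _ d => by
      refine (congrArg M.Nef ?_).mp
        (nκ _ (nef_smul hP (fun Y hY => hP.add _ _ aA hY) (sub_nonneg.2 d)))
      module
  have iF := IsInt.sub (can_int hL' hκ') (pull_int hB (can_int hL hκ))
  have dF := dv_sub hκ'.1 (dv_pull (M := M) κ)
  generalize κ' - M.pull M' κ = F at F0 F1 k1 k2 iF dF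
  have h1 := hA N K M' hM' κ' _ {M.pull M' D + F, M.pull M' A + F} ⟨isCan_of hL' hκ',
    E.support.finite_toSet.union hB.fin, ⟨fun P k => k.elim (fun e => hB.pr P (dE P e)) And.left,
      fun y => (hg y).2.imp fun _ k => ⟨k.1, fun P e o => k.2 P o (Or.inl e)⟩⟩,
    by simp only [Finset.mem_insert, Finset.mem_singleton, forall_eq_or_imp, forall_eq]
       exact ⟨dv_add (dv_pull _) dF, dv_add (dv_pull _) dF⟩,
    by simp only [Finset.mem_insert, Finset.mem_singleton, forall_eq_or_imp, forall_eq]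
       exact ⟨IsInt.add (pull_int hB iD) iF, IsInt.add (pull_int hB iA) iF⟩,
    by simp only [Finset.mem_insert, Finset.mem_singleton, forall_eq_or_imp, forall_eq]
       exact ⟨k1, k2⟩⟩
  obtain ⟨T, t1, t2, t3⟩ := P277Z.Gr.fg_iff.1 (P277Z.Gr.FGm.comap (fam_H0 M') h1
    (dg (M.pull M' D + F) (M.pull M' A + F)) ⊤ AddMonoid.FG.fg_top fun p _ => by
      refine AddSubmonoid.add_mem _ ?_ ?_ <;> rw [Nat.cast_smul_eq_nsmul] <;>
        exact AddSubmonoid.nsmul_mem _ (AddSubmonoid.subset_closure (by simp)) _)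
  have e : ∀ p f, f ∈ M'.H0 (dg (M.pull M' D + F) (M.pull M' A + F) p) ↔ f ∈ M.H0 (dg D A p) :=
    fun p f => by
      rw [← hB.sec (dg D A p) (((p.1 : ℝ) + p.2) • F) f
        (F1 ▸ Finset.coe_subset.2 Finsupp.support_smul) (smul_nonneg (by positivity) F0)]
      refine iff_of_eq (congrArg (fun Z => f ∈ M'.H0 Z) ?_)
      show (p.1 : ℝ) • _ + (p.2 : ℝ) • _ = M.pull M' ((p.1 : ℝ) • D + (p.2 : ℝ) • A) + _
      simp only [← pl_apply hB, map_add, map_smul]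
      module
  exact semi_of_fg hL hP (fun _ k => hB.O₀ ▸ k) iD iA
    (fun k => nef_smul hP nD k.cast_nonneg _ aA) t1 (fun t k => (e _ _).1 (t2 t k))
    fun p f k => t3 p trivial ((e _ _).2 k)

end Vale.Agent.P277Z.Y
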