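import Vale.Agent.P285Z.StmtX

/-!
# P301Y: one more definition used by the statements for P285
-/

open scoped Manifold ContDiff ComplexOrder Topology

noncomputable section

namespace Vale.Agent.P301Y.St

open Vale.Agent.P272.K Vale.Agent.P285.H281.FD Vale.Agent.P285Z.St

/-- `∫ c₁(L)^n = 0`: the integral of the top power of the curvature form `c` of a smooth metric `ψ`
on `L` is zero -/
def TopZero (n : ℕ) {X : Type} [TopologicalSpace X] [ChartedSpace (Cm n) X] (L : Bd X) : Prop :=
  ∃ (ψ : L.ι → X → ℝ) (c : Chart n X → Cm n → Matrix (Fin n) (Fin n) ℂ), IsMet n L ψ ∧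
    (∀ i e x, At e x → x ∈ L.U i → c e (e x) = cv n ψ i e x) ∧
    IsIntegral (fun (e : Chart n X) z => (c e z).det.re) 0

end Vale.Agent.P301Y.St
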