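import Vale.Agent.P301Y.Defs
import Vale.Agent.P301.H599.Iter
import Vale.Agent.P272.K.Inv.Consts
import Vale.Agent.P272.K.INT.Local

/-!
# P301Y: the hypotheses of the big case in terms of cocycles
-/

open scoped Manifold ContDiff ComplexOrder Topology
open Vale.Agent.P272.K Vale.Agent.P301.H599
open Vale.Agent.P285.H281.FD (Bd IsLB IsSec NZ IsMet)
open Vale.Agent.P281Z (Mf Pos)

noncomputable section

namespace Vale.Agent.P301Y

namespace PreH

variable {d : ℕ} {V : Mf d} {ι κ : Type} {w s : Chart d V.X → Cm d → Matrix (Fin d) (Fin d) ℂ}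
  {L : LineBundle d V.X ι} {A : LineBundle d V.X κ} {ρ : ι → V.X → ℝ} {α : κ → V.X → ℝ}

theorem lb (L : LineBundle d V.X ι) : IsLB d (bd L) :=
  ⟨L.isOpen, L.cover, fun i j e x h hi hj => (L.holo i j e x h hi hj).contDiffAt, L.ne_zero,
    L.cocycle⟩

theorem herm (hα : IsMetric A α) (hp : ∀ e x, At e x → (curvature A α e (e x)).PosDef) :
    IsHermitian (curvature A α) :=
  ⟨fun e x h i j => (A.cover x).elim fun k hk =>
    (INT.smooth_cHess (hα.smooth k e x h hk) i j).congr_of_eventuallyEq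
      ((curvature_ev hα h hk).mono fun _ hz => congrFun (congrFun hz i) j), hp, isForm_curvature hα⟩

theorem alg {H N T W D : Matrix (Fin d) (Fin d) ℂ} {C : ℝ} (hC : 0 < C) (p : ℕ) (hH : H.PosDef)
    (h1 : ((C : ℂ) • H - W).PosSemidef)
    (h2 : (T + (((C * (p + 1))⁻¹ : ℝ) : ℂ) • W + D).PosSemidef)
    (hN : N = ((p : ℝ) : ℂ) • (T + D) + H) : N.PosDef := by
  have k0 : (0 : ℝ) < p + 1 := by positivity
  have k1 : (C : ℂ) ≠ 0 := Complex.ofReal_ne_zero.2 hC.ne'
  have k2 : (p : ℂ) + 1 ≠ 0 := by exact_mod_cast k0.ne'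
  have e : N = (((p + 1 : ℝ)⁻¹ : ℝ) : ℂ) • H + (((p : ℝ) : ℂ) •
      (T + (((C * (p + 1))⁻¹ : ℝ) : ℂ) • W + D) +
      ((p * (C * (p + 1))⁻¹ : ℝ) : ℂ) • ((C : ℂ) • H - W)) := by
    rw [hN]
    ext i j
    simp only [Matrix.add_apply, Matrix.sub_apply, Matrix.smul_apply, smul_eq_mul]
    push_cast
    field_simp
    ring
  rw [e]
  refine (hH.smul ?_).add_posSemidef ((h2.smul ?_).add (h1.smul ?_))
  · exact Complex.zero_lt_real.2 (inv_pos.2 k0)
  · exact Complex.zero_le_real.2 p.cast_nonneg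
  · exact Complex.zero_le_real.2 (by positivity)

theorem pos (hw : IsKahler w) (hα : IsMetric A α)
    (hp : ∀ e x, At e x → (curvature A α e (e x)).PosDef) (hρ : IsMetric L ρ)
    (hn : P301Z.Nef w L ρ) (p : ℕ) : Pos d (((bd L).pow p).mul (bd A)) := by
  have two : (2 : WithTop ℕ∞) ≤ ∞ := by norm_cast
  obtain ⟨C, hC, h⟩ := exists_comparison (herm hα hp) hw.toIsHermitian
  obtain ⟨u, hu, hN⟩ := hn (C * (p + 1))⁻¹ (by positivity)
  refine ⟨fun i x => p * (ρ i.1 x + u x) + α i.2 x, ⟨fun i e x he hi => ?_, fun i j x hi hj => ?_⟩,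
    fun i e x he hi => ?_⟩
  · exact (contDiffAt_const.mul ((hρ.smooth i.1 e x he hi.1).add (hu e x he))).add
      (hα.smooth i.2 e x he hi.2)
  · have a := norm_ne_zero_iff.2 (L.ne_zero i.1 j.1 x hi.1 hj.1)
    have b := norm_ne_zero_iff.2 (A.ne_zero i.2 j.2 x hi.2 hj.2)
    show _ = _ + Real.log (‖L.g i.1 j.1 x ^ p * A.g i.2 j.2 x‖ ^ 2)
    rw [hρ.change i.1 j.1 x hi.1 hj.1, hα.change i.2 j.2 x hi.2 hj.2, norm_mul, norm_pow, mul_pow,
      Real.log_mul (pow_ne_zero _ (pow_ne_zero _ a)) (pow_ne_zero _ b), ← pow_mul, mul_comm p 2,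
      pow_mul, Real.log_pow _ p]
    ring
  · have a := (hρ.smooth i.1 e x he hi.1).of_le two
    have b := (hu e x he).of_le two
    refine alg hC p (hp e x he) (h e x he) (hN e x he) ?_
    rw [cHess_add (contDiffAt_const.mul (a.add b)) ((hα.smooth i.2 e x he hi.2).of_le two),
      cHess_const_mul _ (a.add b), cHess_add a b, curvature_eq hρ he hi.1, curvature_eq hα he hi.2]
    rfl

theorem hol (hs : IsHolTwoForm s) {e : Chart d V.X} {x : V.X} (he : At e x) :
    P277Z.Hol d (fun y => (s e (e y)).det) x := by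
  have a : AnalyticAt ℂ (fun z => (s e z).det) (e x) := by
    simp only [Matrix.det_apply']
    refine Finset.analyticAt_fun_sum _ fun σ _ => analyticAt_const.mul ?_
    exact Finset.analyticAt_fun_prod _ fun i _ => hs.holo e x he (σ i) i
  refine P277Z.Hol.of_chart he (a.congr ?_)
  filter_upwards [he.nhds_target] with z hz
  rw [e.right_inv hz]

theorem sec (hs : IsHolTwoForm s) :
    IsSec d ((Bd.can d V.X).pow 2) fun (e : Chart d V.X) x => (s e (e x)).det := by
  refine ⟨fun e e' x he' he => (hol hs he e' he').contDiffAt, fun e e' x he he' => ?_⟩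
  show _ = (jacM e e' x).det ^ 2 * _
  rw [hs.change e e' x he he', Matrix.det_mul, Matrix.det_mul, Matrix.det_transpose]
  ring

end PreH

open PreH in
/-- **PRE** -/
theorem pre : PRE := fun _ _ _ _ _ hs _ A α hα hp _ L _ hρ hn _ =>
  ⟨lb L, lb A, ⟨α, ⟨hα.smooth, hα.change⟩, fun _ e x he hi => by
      have := hp e x he
      rwa [curvature_eq hα he hi] at this⟩, pos hs.kahler hα hp hρ hn,
    _, sec hs.form, fun x e he => hs.nondeg e x he⟩

end Vale.Agent.P301Y
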